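import Vale.Agent.P325.R4.H480.Final

/-!
# NP-hardness of Unique Games over two labels near completeness one, within a factor that tends to
infinity

(1) There is `K > 0` such that for every real `C ≥ 1` and all `0 < ε ≤ exp (-exp (exp (K C ^ 2)))`
it is NP-hard to distinguish Unique Games instances over two labels of value at least `1 - ε` from
those of value at most `1 - C ε`.

(2) There are `c, ε₀ > 0` such that for all `0 < ε ≤ ε₀` this holds with
`C = c * sqrt (log (log (log (1 / ε))))`.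
-/

theorem Vale.Agent.Results.P325.GrowingFactor.result :
    (∃ K : ℝ, 0 < K ∧ ∀ C ε : ℝ, 1 ≤ C → 0 < ε →
      ε ≤ Real.exp (-Real.exp (Real.exp (K * C ^ 2))) →
      Vale.Agent.P325.UGHardOver 2 (1 - ε) (1 - C * ε)) ∧
    (∃ c ε₀ : ℝ, 0 < c ∧ 0 < ε₀ ∧ ∀ ε : ℝ, 0 < ε → ε ≤ ε₀ →
      Vale.Agent.P325.UGHardOver 2 (1 - ε)
        (1 - c * Real.sqrt (Real.log (Real.log (Real.log (1 / ε)))) * ε)) :=
  ⟨Vale.Agent.P325.K2.Q.explicit, Vale.Agent.P325.K2.Q.growing⟩
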