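import Vale.Agent.P325.H844.Pad
import Vale.Agent.P325.H936.Fact
import Vale.Agent.P325.H936.Quad

/-!
# NP-hardness of Unique Games near completeness one with a factor close to `5580 / 1601 = 3.4853`

For all `0 < ε ≤ 1 / 16` and all `C < 5580 / 1601` it is NP-hard to distinguish Unique Games
instances (over some fixed alphabet) of value at least `1 - ε` from those of value at most
`1 - C ε`.
-/

theorem Vale.Agent.Results.P325.QuadFactor.result : ∀ ε C : ℝ, 0 < ε → ε ≤ 1 / 16 →
    C < 5580 / 1601 → Vale.Agent.P325.UGHard (1 - ε) (1 - C * ε) := by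
  intro ε C h0 h1 hC
  obtain ⟨η, hη0, hη1, hη2⟩ : ∃ η : ℝ, 0 < η ∧ η < ε ∧
      7181 / 1601 * η ≤ (5580 / 1601 - C) * ε := by
    have h2 : 0 < (5580 / 1601 - C) * ε := mul_pos (by linarith) h0
    refine ⟨min (ε / 2) (1601 / 7181 * ((5580 / 1601 - C) * ε)), by positivity, ?_, ?_⟩
    · exact lt_of_le_of_lt (min_le_left _ _) (by linarith)
    · have := min_le_right (ε / 2) (1601 / 7181 * ((5580 / 1601 - C) * ε))
      linarith
  have h3 := Vale.Agent.P325.H844.hard_pad Vale.Agent.P325.H936.quad
    (by show 1 ≤ 4; norm_num)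
    (by
      rw [← List.length_pos_iff, Vale.Agent.P325.H936.length_quad Vale.Agent.P325.H936.facts]
      norm_num)
    (15 / 16) (5009 / 6404) (by norm_num) (by norm_num)
    (Vale.Agent.P325.H936.quad_yes Vale.Agent.P325.H936.facts)
    (Vale.Agent.P325.H936.quad_no Vale.Agent.P325.H936.facts)
    (16 * (ε - η)) η (by linarith) (by linarith) hη0 (by linarith)
  exact h3.mono (by linarith) (by linarith)
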