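import Vale.Agent.P325.H844.Pad
import Vale.Agent.P325.H936.EigFact

/-!
# NP-hardness of Unique Games for completeness at least seven eighths, factor close to
`186 / 55 = 3.3818`

For all `0 < ε ≤ 1 / 8` and all `C < 186 / 55` it is NP-hard to distinguish Unique Games
instances (over some fixed alphabet) of value at least `1 - ε` from those of value at most
`1 - C ε`.
-/

theorem Vale.Agent.Results.P325.UpToEighth.result : ∀ ε C : ℝ, 0 < ε → ε ≤ 1 / 8 →
    C < 186 / 55 → Vale.Agent.P325.UGHard (1 - ε) (1 - C * ε) := by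
  intro ε C h0 h1 hC
  obtain ⟨η, hη0, hη1, hη2⟩ : ∃ η : ℝ, 0 < η ∧ η < ε ∧
      241 / 55 * η ≤ (186 / 55 - C) * ε := by
    have h2 : 0 < (186 / 55 - C) * ε := mul_pos (by linarith) h0
    refine ⟨min (ε / 2) (55 / 241 * ((186 / 55 - C) * ε)), by positivity, ?_, ?_⟩
    · exact lt_of_le_of_lt (min_le_left _ _) (by linarith)
    · have := min_le_right (ε / 2) (55 / 241 * ((186 / 55 - C) * ε))
      linarith
  have h3 := Vale.Agent.P325.H844.hard_pad Vale.Agent.P325.H936.Eig.eig
    (by show 1 ≤ 4; norm_num)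
    (by
      rw [← List.length_pos_iff, Vale.Agent.P325.H936.Eig.length_eig]
      norm_num)
    (7 / 8) (127 / 220) (by norm_num) (by norm_num) Vale.Agent.P325.H936.Eig.eig_yes
    Vale.Agent.P325.H936.Eig.eig_no (8 * (ε - η)) η (by linarith) (by linarith) hη0
    (by linarith)
  exact h3.mono (by linarith) (by linarith)
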